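import Vale.Agent.P267.H622.PushF
import Vale.Agent.P267.H283.Facts2
import Vale.Agent.P267.H399.LBCurv

/-!
# P267 / XM-DESC (helper622): the facts on the covering maps used by block C
-/

set_option linter.unusedVariables false
set_option linter.unusedSectionVars false

open scoped Manifold ContDiff ComplexConjugate Matrix ComplexOrder
open MeasureTheory Set Filter Topology Function

noncomputable section

namespace Vale.Agent.P267.XT

open FL H158 BlockC Vale.Agent.P267.H928 Vale.Agent.P267.RR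

/-! ### smooth forms which agree on a dense set are equal -/

section dense

variable {M : Type*} [TopologicalSpace M] [ChartedSpace C2 M] [IsManifold 𝓘(ℂ, C2) ω M]

theorem eq_of_frequently0 {n : WithTop ℕ∞} {κ : ℤ} {u v : M → ℂ} {x : M} (hu : At0 n κ u x)
    (hv : At0 n κ v x) (h : ∃ᶠ y in 𝓝 x, u y = v y) : u x = v x := by
  set e := chartAt C2 x
  have h1 : Tendsto (fun y => loc0 κ e u (e y)) (𝓝 x) (𝓝 (loc0 κ e u (e x))) :=
    (ContDiffAt.continuousAt hu).tendsto.comp (e.continuousAt (mem_chart_source C2 x))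
  have h2 : Tendsto (fun y => loc0 κ e v (e y)) (𝓝 x) (𝓝 (loc0 κ e v (e x))) :=
    (ContDiffAt.continuousAt hv).tendsto.comp (e.continuousAt (mem_chart_source C2 x))
  have h3 := tendsto_nhds_unique_of_frequently_eq h1 h2 ((h.and_eventually
    (e.open_source.mem_nhds (mem_chart_source C2 x))).mono fun y hy => by
      rw [loc0_source hy.2, loc0_source hy.2, hy.1])
  rwa [loc0_chartAt, loc0_chartAt] at h3

theorem eq_of_frequently2 {n : WithTop ℕ∞} {κ : ℤ} {u v : M → ℂ} {x : M} (hu : At2 n κ u x)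
    (hv : At2 n κ v x) (h : ∃ᶠ y in 𝓝 x, u y = v y) : u x = v x := by
  set e := chartAt C2 x
  have h1 : Tendsto (fun y => loc2 κ e u (e y)) (𝓝 x) (𝓝 (loc2 κ e u (e x))) :=
    (ContDiffAt.continuousAt hu).tendsto.comp (e.continuousAt (mem_chart_source C2 x))
  have h2 : Tendsto (fun y => loc2 κ e v (e y)) (𝓝 x) (𝓝 (loc2 κ e v (e x))) :=
    (ContDiffAt.continuousAt hv).tendsto.comp (e.continuousAt (mem_chart_source C2 x))
  have h3 := tendsto_nhds_unique_of_frequently_eq h1 h2 ((h.and_eventually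
    (e.open_source.mem_nhds (mem_chart_source C2 x))).mono fun y hy => by
      rw [loc2_source hy.2, loc2_source hy.2, hy.1])
  rwa [loc2_chartAt, loc2_chartAt] at h3

theorem eq_of_frequently11 {n : WithTop ℕ∞} {u v : M → Matrix (Fin 2) (Fin 2) ℂ} {x : M}
    (hu : G11 n u x) (hv : G11 n v x) (h : ∃ᶠ y in 𝓝 x, u y = v y) : u x = v x := by
  ext i j
  set e := chartAt C2 x with he
  have h1 : Tendsto (fun y => loc11 e u (e y) i j) (𝓝 x) (𝓝 (loc11 e u (e x) i j)) :=
    (ContDiffAt.continuousAt (hu i j)).tendsto.comp (e.continuousAt (mem_chart_source C2 x))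
  have h2 : Tendsto (fun y => loc11 e v (e y) i j) (𝓝 x) (𝓝 (loc11 e v (e x) i j)) :=
    (ContDiffAt.continuousAt (hv i j)).tendsto.comp (e.continuousAt (mem_chart_source C2 x))
  have h3 := tendsto_nhds_unique_of_frequently_eq h1 h2 ((h.and_eventually
    (e.open_source.mem_nhds (mem_chart_source C2 x))).mono fun y hy => by
      simp only [loc11, Matrix.of_apply, e.left_inv hy.2, hy.1])
  rw [he, H469.loc11_at, H469.loc11_at] at h3
  exact h3

theorem twoF_eq_of_frequently {F G : TwoF M} (hF : F.Smooth) (hG : G.Smooth)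
    (h : ∀ x, ∃ᶠ y in 𝓝 x, tot F y = tot G y) : F = G := by
  refine twoF_ext (fun x => ?_) (fun x => ?_) fun x => ?_
  · exact eq_of_frequently0 (hF.s20.at x) (hG.s20.at x) ((h x).mono fun y hy =>
      congrArg Prod.fst hy)
  · exact eq_of_frequently11 (reg11_iff'.1 hF.s11 x) (reg11_iff'.1 hG.s11 x)
      ((h x).mono fun y hy => congrArg (fun t => t.2.1) hy)
  · exact eq_of_frequently2 (hF.s02.at x) (hG.s02.at x) ((h x).mono fun y hy =>
      congrArg (fun t => t.2.2) hy)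

end dense

/-! ### translates, pull-backs, push-forwards -/

section cov

variable {X : Type} [TopologicalSpace X] [T2Space X] [CompactSpace X] [ChartedSpace C2 X]
  [IsManifold 𝓘(ℂ, C2) ω X] {h : C(X, UnitAddCircle)}

theorem shF_eq (k : ℤ) (F : TwoF (Cov h)) : shF k F = pull2 (Cov.shift (-k)) F := rfl

theorem pullM_eq (m : ℕ) [NeZero m] (F : TwoF (CovM h m)) : pullM m F = pull2 (Cov.toM m) F := rfl

omit [T2Space X] [IsManifold 𝓘(ℂ, C2) ω X] in
theorem cf_of_cs {F : TwoF (Cov h)} (hF : CS F) : CF F := by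
  obtain ⟨R, hR⟩ := hF
  exact ⟨_, isCompact_band R, fun x hx => hR x (not_le.1 hx).le⟩

theorem pair_shF (k : ℤ) {F G : TwoF (Cov h)} (hF : F.Smooth) (hG : G.Smooth) (hc : CS F) :
    pair (shF k F) (shF k G) = pair F G := by
  have h1 : Reg2 ∞ 1 (F.wedge G) := H469.wedge_mem hF hG
  exact intX_comp_of_bijective (chartMap_shift (-k)) (Cov.shift (-k)).bijective
    (h1.of_le zero_le) ((hc.sh k).compact_wedge (shF k G))

theorem finite_tot {F : TwoF (Cov h)} (hF : CS F) {m : ℕ} [NeZero m] (z : Cov h) :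
    (Function.support fun k : ℤ => tot F (Cov.shift (m * k) z)).Finite := by
  obtain ⟨R, hR⟩ := hF
  obtain ⟨N, hN⟩ := exists_nat_ge (|Cov.f z| + R)
  refine (Set.finite_Icc (-(N : ℤ)) N).subset fun k hk => ?_
  by_contra hk'
  apply hk
  have h1 : (N : ℤ) < |k| := by
    rw [mem_Icc, ← abs_le, not_le] at hk'
    exact hk'
  have h2 : (1 : ℝ) ≤ m := by exact_mod_cast NeZero.one_le
  have h3 : (N : ℝ) < |(k : ℝ)| := by exact_mod_cast h1
  have h4 : |(k : ℝ)| ≤ |(m : ℝ) * k| := by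
    rw [abs_mul, Nat.abs_cast]
    nlinarith [abs_nonneg (k : ℝ)]
  have h5 : R ≤ |Cov.f (Cov.shift (m * k) z)| := by
    rw [Cov.f_shift]
    push_cast
    have := abs_sub_abs_le_abs_sub ((m : ℝ) * k) (-Cov.f z)
    rw [abs_neg, sub_neg_eq_add, add_comm ((m : ℝ) * k)] at this
    linarith
  obtain ⟨h6, h7, h8⟩ := hR _ h5
  change (F.f20 _, F.f11 _, F.f02 _) = (0 : ℂ × Matrix (Fin 2) (Fin 2) ℂ × ℂ)
  rw [h6, h7, h8]
  rfl

theorem wedge_pull_push2 {m : ℕ} [NeZero m] {F : TwoF (Cov h)} (hF : CS F) (G : TwoF (Cov h))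
    (z : Cov h) : G.wedge (pullM m (push2 (Cov.toM m) F)) z =
      ∑ᶠ k : ℤ, G.wedge (shF (m * k) F) z := by
  have h1 : tot (pullM m (push2 (Cov.toM m) F)) z = ∑ᶠ k : ℤ, tot F (Cov.shift (m * k) z) := by
    have h2 := tot_push2 (chartMap_toM (hh := h) (m := m)) (cf_of_cs hF) (Cov.toM m z)
    rw [push_toM] at h2
    exact h2
  rw [wedge_eq_wdg, h1, ← wdgR_apply, AddMonoidHom.map_finsum _ (finite_tot hF z)]
  rw [← finsum_comp_equiv (Equiv.neg ℤ)]
  refine finsum_congr fun k => ?_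
  rw [wdgR_apply, wedge_eq_wdg]
  have h3 : (m : ℤ) * (Equiv.neg ℤ k) = -(m * k) := by
    rw [Equiv.neg_apply]; ring
  rw [h3]
  rfl

theorem pair_pull_push2 {m : ℕ} [NeZero m] {F G : TwoF (Cov h)} (hF : F.Smooth) (hG : G.Smooth)
    (hcF : CS F) (hcG : CS G) :
    pair G (pullM m (push2 (Cov.toM m) F)) = ∑ᶠ k : ℤ, pair G (shF (m * k) F) := by
  obtain ⟨N, hN⟩ := hcG.wedge_sh hcF
  have hN' : ∀ k : ℤ, k ∉ Finset.Icc (-(N : ℤ)) N → G.wedge (shF (m * k) F) = 0 := by
    intro k hk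
    refine hN _ ?_
    have h1 : (N : ℤ) < |k| := by
      rw [Finset.mem_Icc, ← abs_le, not_le] at hk
      exact hk
    have h2 : (1 : ℤ) ≤ m := by exact_mod_cast NeZero.one_le
    rw [abs_mul, Nat.abs_cast]
    nlinarith [abs_nonneg k]
  have hr : ∀ k : ℤ, Reg2 0 1 (G.wedge (shF (m * k) F)) := fun k => by
    have h1 : Reg2 ∞ 1 (G.wedge (shF (m * k) F)) :=
      H469.wedge_mem hG ((chartMap_shift _).smooth_pull2 hF)
    exact h1.of_le zero_le
  have hc : ∀ k : ℤ, HasCompactSupport (G.wedge (shF (m * k) F)) := fun k =>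
    hcG.compact_wedge _
  have h1 : G.wedge (pullM m (push2 (Cov.toM m) F)) =
      ∑ k ∈ Finset.Icc (-(N : ℤ)) N, G.wedge (shF (m * k) F) := by
    funext z
    rw [wedge_pull_push2 hcF, Finset.sum_apply]
    refine finsum_eq_sum_of_support_subset _ fun k hk => ?_
    by_contra hk'
    exact hk (congrFun (hN' k hk') z)
  rw [pair, h1, finsum_eq_sum_of_support_subset (s := Finset.Icc (-(N : ℤ)) N) _ fun k hk => by
    by_contra hk'
    exact hk (by
      change pair G (shF (m * k) F) = 0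
      rw [pair, hN' k hk', BlockC.intX_zero])]
  have h2 : HasCompactSupport (∑ k ∈ Finset.Icc (-(N : ℤ)) N, G.wedge (shF (m * k) F)) := by
    rw [← h1]
    exact hcG.compact_wedge _
  have h3 : ∀ k ∈ Finset.Icc (-(N : ℤ)) N, IntegrableX (G.wedge (shF (m * k) F)) := fun k _ =>
    integrableX_of_reg (hr k) (hc k)
  have h4 : IntegrableX (∑ k ∈ Finset.Icc (-(N : ℤ)) N, G.wedge (shF (m * k) F)) :=
    integrableX_of_reg (Reg2.sum fun k _ => hr k) h2
  rw [intX_eq_intV h4 h2, intV_sum _ h3]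
  exact Finset.sum_congr rfl fun k hk => (intX_eq_intV (h3 k hk) (hc k)).symm

/-! ### line bundles -/

theorem lb_ext {M : Type*} [TopologicalSpace M] [ChartedSpace C2 M] {ι : Type} [Fintype ι]
    [DecidableEq ι] {L L' : LB M ι} (h : ∀ x, L.P x = L'.P x) : L = L' := by
  obtain ⟨P, _, _, _, _⟩ := L
  obtain ⟨P', _, _, _, _⟩ := L'
  simp only [LB.mk.injEq]
  exact funext h

theorem tot_curv_congr {M : Type*} [TopologicalSpace M] [ChartedSpace C2 M]
    [IsManifold 𝓘(ℂ, C2) ω M] {ι : Type} [Fintype ι]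
    [DecidableEq ι] {L L' : LB M ι} {x : M} (h : ∀ᶠ y in 𝓝 x, L.P y = L'.P y) :
    tot L.curv x = tot L'.curv x := by
  obtain ⟨h1, h2, h3⟩ := LB.curv_congr h
  change (L.F20 x, L.F11 x, L.F02 x) = (L'.F20 x, L'.F11 x, L'.F02 x)
  rw [h1, h2, h3]

theorem tot_curv_const {M : Type*} [TopologicalSpace M] [ChartedSpace C2 M]
    [IsManifold 𝓘(ℂ, C2) ω M] {ι : Type} [Fintype ι]
    [DecidableEq ι] {L : LB M ι} {Q : Matrix ι ι ℂ} {x : M} (h : ∀ᶠ y in 𝓝 x, L.P y = Q) :
    tot L.curv x = 0 := by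
  obtain ⟨h1, h2, h3⟩ := LB.curv_const h
  change (L.F20 x, L.F11 x, L.F02 x) = 0
  rw [h1, h2, h3]
  rfl

theorem tot_eq_zero_iff {M : Type*} {F : TwoF M} {x : M} :
    tot F x = 0 ↔ F.f20 x = 0 ∧ F.f11 x = 0 ∧ F.f02 x = 0 := by
  rw [tot, Prod.mk_eq_zero, Prod.mk_eq_zero]

theorem curv_cs {L : ALB (Cov h)} {i₀ : L.ι} {R : ℝ} (hE : EndTriv h L i₀ R) : CS L.L.curv := by
  refine ⟨R + 1, fun x hx => tot_eq_zero_iff.1 (tot_curv_const (Q := Matrix.single i₀ i₀ 1) ?_)⟩
  have h1 : ∀ᶠ y : Cov h in 𝓝 x, R < |Cov.f y| :=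
    (Cov.continuous_f.abs.continuousAt (x := x)).eventually_const_lt (by linarith)
  exact h1.mono fun y hy => hE y hy.le

section per

variable {m : ℕ} [NeZero m] {L : ALB (Cov h)} {i₀ : L.ι} {R : ℝ}

/-- difference to the constant projector -/
def perA (L : ALB (Cov h)) (i₀ : L.ι) (x : Cov h) : Matrix L.ι L.ι ℂ :=
  L.L.P x - Matrix.single i₀ i₀ 1

/-- the projector of the periodic extension -/
def perP (m : ℕ) [NeZero m] (L : ALB (Cov h)) (i₀ : L.ι) (y : CovM h m) : Matrix L.ι L.ι ℂ :=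
  Matrix.single i₀ i₀ 1 + push (Cov.toM m) (perA L i₀) y

omit [T2Space X] [CompactSpace X] [IsManifold 𝓘(ℂ, C2) ω X] in
theorem perP_toM (hE : EndTriv h L i₀ R) {z : Cov h} {k₀ : ℤ}
    (hk : ∀ k : ℤ, k ≠ k₀ → R ≤ |Cov.f z + m * k|) :
    perP m L i₀ (Cov.toM m z) = L.L.P (Cov.shift (m * k₀) z) := by
  have h1 : ∀ k : ℤ, k ≠ k₀ → perA L i₀ (Cov.shift (m * k) z) = 0 := by
    intro k hk'
    have h2 : R ≤ |Cov.f (Cov.shift (m * k) z)| := by
      rw [Cov.f_shift]; push_cast; exact hk k hk'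
    rw [perA, hE _ h2, sub_self]
  rw [perP, push_toM, finsum_eq_single _ k₀ h1, perA]
  abel

omit [T2Space X] [CompactSpace X] [ChartedSpace C2 X] [IsManifold 𝓘(ℂ, C2) ω X] in
/-- the representative nearest to `0` -/
theorem exists_near (m : ℕ) [NeZero m] (z : Cov h) : ∃ k : ℤ, 2 * |Cov.f z + m * k| ≤ m := by
  have hm : (0 : ℝ) < m := by exact_mod_cast NeZero.pos m
  refine ⟨-round (Cov.f z / m), ?_⟩
  have h1 := abs_sub_round (Cov.f z / m)
  have h2 : Cov.f z + m * ((-round (Cov.f z / m) : ℤ) : ℝ) =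
      m * (Cov.f z / m - round (Cov.f z / m)) := by
    push_cast
    field_simp
    ring
  rw [h2, abs_mul, Nat.abs_cast]
  nlinarith

omit [T2Space X] [CompactSpace X] [ChartedSpace C2 X] [IsManifold 𝓘(ℂ, C2) ω X] in
theorem far_of_near {z : Cov h} {k₀ k : ℤ} (hk : k ≠ k₀) :
    (m : ℝ) - |Cov.f z + m * k₀| ≤ |Cov.f z + m * k| := by
  have h1 : (1 : ℝ) ≤ |((k - k₀ : ℤ) : ℝ)| := by
    have : (1 : ℤ) ≤ |k - k₀| := Int.one_le_abs (sub_ne_zero.2 hk)
    exact_mod_cast this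
  have h2 : (m : ℝ) ≤ |(m : ℝ) * ((k - k₀ : ℤ) : ℝ)| := by
    rw [abs_mul, Nat.abs_cast]
    nlinarith [(Nat.cast_nonneg m : (0 : ℝ) ≤ m)]
  have h3 := abs_sub_abs_le_abs_sub ((m : ℝ) * ((k - k₀ : ℤ) : ℝ)) (-(Cov.f z + m * k₀))
  rw [abs_neg, sub_neg_eq_add] at h3
  have h4 : (m : ℝ) * ((k - k₀ : ℤ) : ℝ) + (Cov.f z + m * k₀) = Cov.f z + m * k := by
    push_cast; ring
  rw [h4] at h3
  linarith

omit [T2Space X] [CompactSpace X] [ChartedSpace C2 X] [IsManifold 𝓘(ℂ, C2) ω X] in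
theorem exists_far (hR : 2 * R ≤ m) (z : Cov h) :
    ∃ k₀ : ℤ, ∀ k : ℤ, k ≠ k₀ → R ≤ |Cov.f z + m * k| := by
  obtain ⟨k₀, hk₀⟩ := exists_near m z
  refine ⟨k₀, fun k hk => ?_⟩
  have := far_of_near (m := m) (z := z) hk
  linarith

theorem perA_compact (hE : EndTriv h L i₀ R) : ∀ x ∉ {x : Cov h | |Cov.f x| ≤ R},
    perA L i₀ x = 0 := fun x hx => by
  rw [perA, hE x (not_le.1 hx).le, sub_self]

theorem reg_perP (hE : EndTriv h L i₀ R) (i j : L.ι) : Reg0 ∞ 0 fun y => perP m L i₀ y i j := by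
  have h1 : Reg0 ∞ 0 fun x => perA L i₀ x i j := by
    refine reg0_iff_at.2 fun x => ?_
    exact ((L.L.smooth i j).at x).sub at0_const
  have h2 : HasCompactSupport fun x => perA L i₀ x i j :=
    HasCompactSupport.intro (isCompact_band R) fun x hx => by
      rw [perA_compact hE x hx]; rfl
  have h3 := reg0_push (chartMap_toM (hh := h) (m := m)) h1 h2
  let T : Matrix L.ι L.ι ℂ →+ ℂ := AddMonoidHom.mk' (fun g => g i j) fun a b => rfl
  have h4 : ∀ y, push (Cov.toM m) (fun x => perA L i₀ x i j) y =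
      (push (Cov.toM m) (perA L i₀) y) i j := fun y =>
    push_map (chartMap_toM (hh := h) (m := m)).isLocalHomeomorph T (isCompact_band R)
      (perA_compact hE) y
  refine reg0_iff_at.2 fun y => ?_
  refine (At0.add (at0_const (c := (Matrix.single i₀ i₀ (1 : ℂ)) i j)) (h3.at y)).congr
    (Eventually.of_forall fun y => ?_)
  exact congrArg (fun t => Matrix.single i₀ i₀ (1 : ℂ) i j + t) (h4 y).symm

theorem perP_eq (hE : EndTriv h L i₀ R) (hR : 2 * R ≤ m) (y : CovM h m) :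
    ∃ x, Cov.toM m x = y ∧ perP m L i₀ y = L.L.P x := by
  obtain ⟨z, rfl⟩ := Cov.surjective_toM (h := h) (m := m) y
  obtain ⟨k₀, hk₀⟩ := exists_far (m := m) hR z
  exact ⟨_, Cov.toM_eq_iff.2 ⟨-k₀, by
    rw [← Cov.shift_add]
    have : (m : ℤ) * -k₀ + m * k₀ = 0 := by ring
    rw [this, Cov.shift_zero]⟩, perP_toM hE hk₀⟩

/-- the periodic extension -/
def perLB (hE : EndTriv h L i₀ R) (hR : 2 * R ≤ m) : LB (CovM h m) L.ι where
  P := perP m L i₀
  smooth := reg_perP hE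
  herm y := by
    obtain ⟨x, -, hx⟩ := perP_eq hE hR y
    rw [hx, L.L.herm]
  idem y := by
    obtain ⟨x, -, hx⟩ := perP_eq hE hR y
    rw [hx, L.L.idem]
  tr y := by
    obtain ⟨x, -, hx⟩ := perP_eq hE hR y
    rw [hx, L.L.tr]

theorem isPer_perLB (hE : EndTriv h L i₀ R) (hR : 2 * R ≤ m) :
    IsPer h m L.L (perLB hE hR) := by
  intro z hz
  have h1 : ∀ k : ℤ, k ≠ 0 → R ≤ |Cov.f z + m * k| := by
    intro k hk
    have := far_of_near (m := m) (z := z) hk
    rw [Int.cast_zero, mul_zero, add_zero] at this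
    linarith
  have h2 := perP_toM hE h1
  rw [mul_zero, Cov.shift_zero] at h2
  exact h2

/-- near `z` at most one translate is active -/
def Good (m : ℕ) (R : ℝ) (z : Cov h) : Prop :=
  ∃ k₀ : ℤ, ∀ᶠ w : Cov h in 𝓝 z, ∀ k : ℤ, k ≠ k₀ → R ≤ |Cov.f w + m * k|

omit [T2Space X] [CompactSpace X] [ChartedSpace C2 X] [IsManifold 𝓘(ℂ, C2) ω X] in
theorem frequently_good (hR : 2 * R ≤ m) (z : Cov h) : ∃ᶠ w in 𝓝 z, Good m R w := by
  rw [Filter.Frequently]
  intro H
  have h1 : ∀ w : Cov h, ¬Good m R w → ∀ k : ℤ, R ≤ |Cov.f w + m * k| := by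
    intro w hw
    obtain ⟨k₀, hk₀⟩ := exists_near m w
    have h2 : ¬(|Cov.f w + m * k₀| < m - R) := by
      intro h3
      apply hw
      refine ⟨k₀, ?_⟩
      have h4 : Continuous fun w : Cov h => |Cov.f w + m * k₀| :=
        (Cov.continuous_f.add continuous_const).abs
      filter_upwards [h4.continuousAt.eventually_lt_const h3] with w' hw' k hk
      have := far_of_near (m := m) (z := w') hk
      linarith
    intro k
    by_cases hk : k = k₀
    · rw [hk]; linarith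
    · have := far_of_near (m := m) (z := w) hk
      linarith
  refine H.self_of_nhds ⟨0, ?_⟩
  filter_upwards [H] with w hw k _
  exact h1 w hw k

theorem curv_perLB_good (hE : EndTriv h L i₀ R) (hR : 2 * R ≤ m) {z : Cov h}
    (hz : Good m R z) : tot (perLB hE hR).curv (Cov.toM m z) =
      tot (push2 (Cov.toM m) L.L.curv) (Cov.toM m z) := by
  obtain ⟨k₀, hk₀⟩ := hz
  have hq := chartMap_toM (hh := h) (m := m)
  have hs := chartMap_shift (hh := h) (m * k₀)
  have h1 : tot (perLB hE hR).curv (Cov.toM m z) = tot (hq.lb (perLB hE hR)).curv z := by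
    rw [hq.lb_curv]; rfl
  have h2 : tot (hq.lb (perLB hE hR)).curv z = tot (hs.lb L.L).curv z :=
    tot_curv_congr (hk₀.mono fun w hw => perP_toM hE hw)
  have h3 : tot (hs.lb L.L).curv z = tot L.L.curv (Cov.shift (m * k₀) z) := by
    rw [hs.lb_curv]; rfl
  rw [h1, h2, h3, tot_push2 hq (cf_of_cs (curv_cs hE)), push_toM, finsum_eq_single _ k₀]
  intro k hk
  refine tot_curv_const (Q := Matrix.single i₀ i₀ 1) ?_
  have h4 : ∀ᶠ w : Cov h in 𝓝 z, R ≤ |Cov.f (Cov.shift (m * k) w)| := by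
    filter_upwards [hk₀] with w hw
    rw [Cov.f_shift]
    push_cast
    exact hw k hk
  have h5 : Tendsto (Cov.shift (-(m * k)) : Cov h → Cov h) (𝓝 (Cov.shift (m * k) z)) (𝓝 z) := by
    have := (Cov.shift (-(m * k)) : Cov h ≃ₜ Cov h).continuous.tendsto (Cov.shift (m * k) z)
    rwa [Cov.shift_neg_shift] at this
  filter_upwards [h5.eventually h4] with w hw
  rw [Cov.shift_shift_neg] at hw
  exact hE w hw

theorem curv_perLB (hE : EndTriv h L i₀ R) (hR : 2 * R ≤ m) :
    (perLB hE hR).curv = push2 (Cov.toM m) L.L.curv := by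
  refine twoF_eq_of_frequently (LB.curv_smooth _)
    (smooth_push2 chartMap_toM (LB.curv_smooth _) (cf_of_cs (curv_cs hE))) fun y => ?_
  obtain ⟨z, rfl⟩ := Cov.surjective_toM (h := h) (m := m) y
  exact (chartMap_toM (hh := h) (m := m)).cont.continuousAt.tendsto.frequently
    ((frequently_good (m := m) hR z).mono fun w hw => curv_perLB_good hE hR hw)

end per

/-! ### the facts -/

theorem covMapFacts (h : C(X, UnitAddCircle)) : CovMapFacts h where
  smooth_sh k F hF := (chartMap_shift (-k)).smooth_pull2 hF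
  closed_sh k F _ hF := (chartMap_shift (-k)).closed_pull2 hF
  pair_sh k F G hF hG hc := pair_shF k hF hG hc
  smooth_pull m _ F hF := chartMap_toM.smooth_pull2 hF
  canon_pull m _ K hK := by
    obtain ⟨σ, h1, h2, h3⟩ := hK
    have hq := chartMap_toM (hh := h) (m := m)
    exact ⟨⟨K.ι, hq.lb K.L⟩, ⟨fun x => σ (Cov.toM m x), hq.reg0_comp h1, hq.lb_sec h2,
      fun x => h3 _⟩, hq.lb_curv K.L⟩
  wrap m _ F hF hcl hc := by
    have hq := chartMap_toM (hh := h) (m := m)
    exact ⟨push2 (Cov.toM m) F, smooth_push2 hq hF (cf_of_cs hc),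
      closed_push2 hq hF (cf_of_cs hc) hcl, fun hr => real_push2 hq (cf_of_cs hc) hr,
      fun G hG => intX_push_wedge hq hF hG (cf_of_cs hc),
      fun G hG hcG => pair_pull_push2 hF hG hc hcG⟩
  exists_shift k L := ⟨(chartMap_shift (-k)).lb L.L, fun x => by
    change L.L.P (Cov.shift (-k) (Cov.shift k x)) = L.L.P x
    rw [Cov.shift_neg_shift]⟩
  curv_shift k L L' hL := by
    have h1 : L' = (chartMap_shift (hh := h) (-k)).lb L.L := lb_ext fun x => by
      change L'.P x = L.L.P (Cov.shift (-k) x)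
      rw [← hL, Cov.shift_shift_neg]
    rw [h1, ChartMap.lb_curv]
    rfl
  curv_CS L i₀ R hE := curv_cs hE
  per m _ L i₀ R hE hR := by
    have hq := chartMap_toM (hh := h) (m := m)
    refine ⟨perLB hE hR, isPer_perLB hE hR, fun G hG => ?_, fun G hG hcG => ?_⟩
    · rw [pair, curv_perLB]
      exact intX_push_wedge hq (LB.curv_smooth _) hG (cf_of_cs (curv_cs hE))
    · rw [curv_perLB]
      exact pair_pull_push2 (LB.curv_smooth _) hG (curv_cs hE) hcG

end cov

/-- all facts on the covering maps -/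
theorem covMapThm : CovMapThm := by
  intro X _ _ _ _ _ h
  exact covMapFacts h

end Vale.Agent.P267.XT
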